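import Vale.Agent.P354.R3.H713.Main

open MeasureTheory Set

namespace Vale.Agent.Results.P354.AlmostEveryWave

open Vale.Agent.P354n (IsC0W1 IsFutureExtension InLp IsInext IsMax wave IsData)
open Vale.Agent.P354.R3.H713

/-- Let 2 ≤ p ≤ ∞. The data f of the plane waves form a linear space D. The data whose plane wave
has a future extension of class C^0 and W^{1,p}_loc form a proper linear subspace V of D, and there
is a second proper linear subspace W of D such that for every f in D outside of V and W the plane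
wave of f is a maximal globally hyperbolic vacuum development, which is not a proper open part of a
connected spacetime of class C^0 and W^{1,p}_loc. V and W have infinite codimension: there is an
infinite dimensional subspace F of D, no element of which but 0 is in V or W; for every f in D the
conclusion holds for f + g, for all g in F except at most two. If g in D is in none of V and W and f
is in D, it holds for f + t g, for all real t except at most two. In every family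
f + a_1 g_1 + ... + a_m g_m of data, such that some g_i is not in V and some g_j is not in W, it
holds for almost every a. -/
theorem result (p : ENNReal) (hp : 2 ≤ p) :
    ∃ D V W : Submodule ℝ (ℝ → ℝ), (∀ f, f ∈ D ↔ IsData f) ∧ V < D ∧ W < D ∧
      (∀ f, f ∈ V ↔ f ∈ D ∧ InLp p f (-(1 / 2))) ∧
      (∀ f, f ∈ W ↔ f ∈ D ∧ InLp p (fun v => f (-1 - v)) (-(1 / 2))) ∧
      (∀ f ∈ D, f ∈ V ↔ ∃ N ι c, IsFutureExtension (IsC0W1 p) (wave f) N ι c) ∧
      (∀ f ∈ D, f ∉ V → f ∉ W → IsMax (wave f) ∧ IsInext (IsC0W1 p) (wave f)) ∧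
      (∃ F ≤ D, ¬ FiniteDimensional ℝ F ∧ (∀ g ∈ F, g ≠ 0 → g ∉ V ∧ g ∉ W) ∧
        ∀ f ∈ D, ∃ a b, ∀ g ∈ F, g ≠ a → g ≠ b →
          IsMax (wave (f + g)) ∧ IsInext (IsC0W1 p) (wave (f + g))) ∧
      (∀ f ∈ D, ∀ g ∈ D, g ∉ V → ∃ a : ℝ, ∀ t, t ≠ a →
        ¬ ∃ N ι c, IsFutureExtension (IsC0W1 p) (wave (f + t • g)) N ι c) ∧
      (∀ f ∈ D, ∀ g ∈ D, g ∉ V → g ∉ W → ∃ a b : ℝ, ∀ t, t ≠ a → t ≠ b →
        IsMax (wave (f + t • g)) ∧ IsInext (IsC0W1 p) (wave (f + t • g))) ∧
      ∀ (m : ℕ), ∀ f ∈ D, ∀ g : Fin m → ℝ → ℝ, (∀ i, g i ∈ D) → (∃ i, g i ∉ V) →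
        ((∀ᵐ a : Fin m → ℝ, ¬ ∃ N ι c,
          IsFutureExtension (IsC0W1 p) (wave (f + ∑ i, a i • g i)) N ι c) ∧
        ((∃ i, g i ∉ W) → ∀ᵐ a : Fin m → ℝ, IsMax (wave (f + ∑ i, a i • g i)) ∧
          IsInext (IsC0W1 p) (wave (f + ∑ i, a i • g i)))) :=
  ⟨DD, VV0 p, VV1 p, fun _ => Iff.rfl, lt_V0 hp, lt_V1 hp, fun _ => mem_V0, fun _ => mem_V1,
    fun _ hf => crit hp hf, fun _ hf h0 h1 => good hp hf h0 h1,
    ⟨FF, FF_le, FF_inf, FF_not hp, two_of hp⟩, fun _ hf _ hg h0 => lines0 hp hf hg h0,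
    fun _ hf _ hg h0 h1 => lines hp hf hg h0 h1,
    fun _ _ hf _ hg h0 => ⟨families0 hp hf hg h0, fun h1 => families hp hf hg h0 h1⟩⟩

end Vale.Agent.Results.P354.AlmostEveryWave
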