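import Vale.Agent.P354.R2.H529.Inx

open Set Filter Topology

namespace Vale.Agent.Results.P354.LipschitzCurvature

open Vale.Agent.P354c

/-- Let M be a smooth time oriented spacetime. (1) No future extension with a locally Lipschitz
metric goes through an end of M which is a weak null singularity (a curvature component, as a
distribution, or the transversal derivative of the metric is unbounded near every point), a corner
of two of them, or far away. (2) If every future timelike curve without end point ends so, there is
no such extension. (3) If M is not empty and all future and all past timelike curves without end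
point end so, M is not a proper open part of a connected spacetime with a locally Lipschitz metric.
(4) Lipschitz is sharp: some M as in (2) has a future extension of class C^0 and W^{1,q}_loc for
all finite q. -/
theorem result :
    (∀ M, IsSpacetime IsSmooth M → (∀ N ι c a, IsFutureExtension IsLip M N ι c →
      (∀ t ∈ J, ι (a t) = c t) → ¬ Ends M a) ∧
      (AllEnd M → ∀ N ι c, ¬ IsFutureExtension IsLip M N ι c) ∧
      (Nonempty M.pt → AllEnd M → AllEnd (rev M) → IsInext IsLip M)) ∧
    ∃ M N ι c, IsSpacetime IsSmooth M ∧ AllEnd M ∧
      ∀ q < ⊤, IsFutureExtension (IsC0W1 q) M N ι c :=
  ⟨fun M hM => ⟨(inext.1 M hM).1, (inext.1 M hM).2, fun h0 h1 h2 => inext2 hM h0 h1 h2⟩, inext.2⟩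

end Vale.Agent.Results.P354.LipschitzCurvature
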